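import Vale.Agent.P173.GR1
import Mathlib.Topology.UnitInterval
import Mathlib.Analysis.Complex.Tietze
import Mathlib.Geometry.Manifold.SmoothApprox
import Mathlib.LinearAlgebra.Matrix.ToLinearEquiv

/-! A continuous deformation of a nonsingular word map takes the value one. -/

open Quaternion Set unitInterval

namespace Vale.Agent.P173

theorem gr_square {m : ℕ} (W : Fin m → FreeGroup (Fin m)) {d : ℤ} (hd : d ≠ 0)
    (hW : ∀ j, expo (W j) = Finsupp.single j d) (H : I × (Fin m → S3) → Fin m → S3)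
    (hH : Continuous H) (h0 : ∀ x j, H (0, x) j = FreeGroup.lift x (W j)) :
    ∃ x, ∀ j, H (1, x) j = 1 := by
  have : ProperSpace ℍ[ℝ] := FiniteDimensional.proper_real _
  have : TietzeExtension.{0, 0} (Fin m → ℍ[ℝ]) := TietzeExtension.of_tvs ℝ
  let f : C(I × (Fin m → S3), Fin m → ℍ[ℝ]) := ⟨fun p j => H p j, by fun_prop⟩
  obtain ⟨x₀, -, hx⟩ := isCompact_univ.exists_isMinOn univ_nonempty
    (f := fun x : Fin m → S3 => ‖f (1, x) - 1‖) (by fun_prop)
  refine ⟨x₀, fun j => Subtype.ext (congrFun (sub_eq_zero.1 (norm_eq_zero.1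
    (le_antisymm (le_of_forall_pos_le_add fun η hη => ?_) (norm_nonneg (f (1, x₀) - 1))))) j)⟩
  have he : Continuous fun p : I × (Fin m → S3) => ((p.1 : ℝ), fun i => (p.2 i : ℍ[ℝ])) := by
    fun_prop
  obtain ⟨g, hg⟩ := f.exists_extension' (he.isClosedEmbedding fun p q h =>
    Prod.ext (Subtype.ext (congrArg Prod.fst h))
      (funext fun i => Subtype.ext (congrFun (congrArg Prod.snd h) i)))
  obtain ⟨F, h1, h2, -⟩ := g.continuous.exists_contDiff_approx ⊤
    (ε := fun _ => min 1 (η / 2)) continuous_const fun _ => lt_min one_pos (half_pos hη)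
  have h3 : ∀ (s : I) (x : Fin m → S3) j, ‖F (s, fun i => x i) j - H (s, x) j‖ < min 1 (η / 2) :=
    fun s x j => by
      have := h2 (s, fun i => x i)
      rw [show g (s, fun i => x i) = f (s, x) from congrFun hg (s, x), dist_eq_norm] at this
      exact (norm_le_pi_norm _ j).trans_lt this
  have h4 : ∀ (s : I) (x : Fin m → S3) j, F (s, fun i => x i) j ≠ 0 := fun s x j h => by
    have := (h3 s x j).trans_le (min_le_left _ _)
    rw [h, zero_sub, norm_neg, S3.norm_coe] at this
    exact this.false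
  obtain ⟨x, h5⟩ := gr_smooth W hd hW F h1 (fun s hs => h4 ⟨s, hs⟩) fun x j => by
    rw [← h0]
    exact (h3 0 x j).trans_le (min_le_left _ _)
  refine (hx (mem_univ x)).trans ((pi_norm_le_iff_of_nonneg (by linarith)).2 fun j => ?_)
  have h6 := (h3 1 x j).trans_le (min_le_right _ _)
  have h7 := norm_nrm_sub (h4 1 x j)
  have h8 := abs_norm_sub_norm_le (H (1, x) j : ℍ[ℝ]) (F (1, fun i => x i) j)
  have h9 := norm_sub_le_norm_sub_add_norm_sub (H (1, x) j : ℍ[ℝ]) (F (1, fun i => x i) j) 1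
  simp only [Icc.coe_one] at h6 h7
  rw [h5, S3.coe_one, norm_sub_rev] at h7
  rw [S3.norm_coe] at h8
  rw [norm_sub_rev] at h6
  show ‖(H (1, x) j : ℍ[ℝ]) - 1‖ ≤ _
  linarith

theorem gr_left {N J : Type*} [Fintype J] {M : J → N →₀ ℤ} (hM : LinearIndependent ℤ M) :
    ∃ d : ℤ, d ≠ 0 ∧ ∃ φ : (N →₀ ℤ) →ₗ[ℤ] (J →₀ ℤ), ∀ j, φ (M j) = Finsupp.single j d := by
  classical
  let P : (N →₀ ℤ) →ₗ[ℤ] (J → ℤ) := LinearMap.pi fun j => Finsupp.linearCombination ℤ (M j)
  let A : Matrix J J ℤ := fun i => P (M i)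
  refine ⟨A.det, fun h => ?_, (Finsupp.linearEquivFunOnFinite ℤ ℤ J).symm.toLinearMap ∘ₗ
    A.adjugate.vecMulLinear ∘ₗ P, fun j => ?_⟩
  · obtain ⟨v, hv, h1⟩ := Matrix.exists_vecMul_eq_zero_iff.2 h
    refine hv (funext (Fintype.linearIndependent_iff.1 hM v ?_))
    have h2 : P (∑ i, v i • M i) = 0 := by
      rw [← h1, map_sum, Matrix.vecMul_eq_sum]
      simp [A]
    have h3 : ∀ z : N →₀ ℤ, Finsupp.linearCombination ℤ (∑ i, v i • M i : N →₀ ℤ) z =
        ∑ i, v i * P z i := fun z => by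
      induction z using Finsupp.induction_linear with
      | zero => simp
      | add x y hx hy =>
        simp only [map_add, hx, hy, Pi.add_apply, mul_add, Finset.sum_add_distrib]
      | single e n => simp [P, Finset.mul_sum, mul_left_comm]
    have h4 := h3 (∑ i, v i • M i)
    rw [h2, Finsupp.linearCombination_apply, Finsupp.sum] at h4
    simp only [Pi.zero_apply, mul_zero, Finset.sum_const_zero, smul_eq_mul] at h4
    rw [Finset.sum_eq_zero_iff_of_nonneg fun _ _ => mul_self_nonneg _] at h4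
    exact Finsupp.support_eq_empty.1 (Finset.eq_empty_of_forall_notMem fun e he =>
      Finsupp.mem_support_iff.1 he (mul_self_eq_zero.1 (h4 e he)))
  · ext i
    have := congrFun (congrFun A.mul_adjugate j) i
    simpa [Matrix.one_apply, Finsupp.single_apply, Matrix.mul_apply, Matrix.vecMul, dotProduct]
      using this

theorem gr_expo_surj {N : Type*} (z : N →₀ ℤ) : ∃ w, expo w = z := by
  induction z using Finsupp.induction_linear with
  | zero => exact ⟨1, expo_one⟩
  | add x y hx hy =>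
    obtain ⟨u, rfl⟩ := hx
    obtain ⟨v, rfl⟩ := hy
    exact ⟨u * v, expo_mul u v⟩
  | single e n => exact ⟨.of e ^ n, by simp [expo]⟩

theorem gr_expo_lift {N N' : Type*} (φ : (N →₀ ℤ) →ₗ[ℤ] (N' →₀ ℤ)) {τ : N → FreeGroup N'}
    (h : ∀ e, expo (τ e) = φ (Finsupp.single e 1)) (w : FreeGroup N) :
    expo (FreeGroup.lift τ w) = φ (expo w) := by
  induction w using FreeGroup.induction_on with
  | C1 => simp
  | of e => simp [h]
  | inv_of e _ => simp [h]
  | mul u v hu hv => simp [hu, hv]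

theorem robust_GR {N J : Type*} [Finite J] (W : J → FreeGroup N)
    (hW : LinearIndependent ℤ fun j => expo (W j))
    (H : I × (N → S3) → J → S3) (hH : Continuous H)
    (h0 : ∀ x j, H (0, x) j = FreeGroup.lift x (W j)) : ∃ x, ∀ j, H (1, x) j = 1 := by
  obtain ⟨m, ⟨ι⟩⟩ := Finite.exists_equiv_fin J
  obtain ⟨d, hd, φ, hφ⟩ := gr_left (hW.comp ι.symm ι.symm.injective)
  choose τ hτ using fun e => gr_expo_surj (φ (Finsupp.single e 1))
  have h1 : Continuous fun (y : Fin m → S3) (e : N) => FreeGroup.lift y (τ e) :=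
    continuous_pi fun e => continuous_lift (fun n => continuous_apply n) _
  obtain ⟨y, hy⟩ := gr_square (fun j => FreeGroup.lift τ (W (ι.symm j))) hd
    (fun j => (gr_expo_lift φ hτ _).trans (hφ j))
    (fun p j => H (p.1, fun e => FreeGroup.lift p.2 (τ e)) (ι.symm j))
    (continuous_pi fun j => (continuous_apply _).comp
      (hH.comp (continuous_fst.prodMk (h1.comp continuous_snd)))) fun y j => by
      have : FreeGroup.lift (fun e => FreeGroup.lift y (τ e)) =
          (FreeGroup.lift y).comp (FreeGroup.lift τ) := FreeGroup.ext_hom _ _ fun e => by simp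
      rw [h0, this, MonoidHom.comp_apply]
  exact ⟨_, fun j => by simpa using hy (ι j)⟩

end Vale.Agent.P173
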