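import Vale.Agent.P173.Local
import Vale.Agent.P173.GR
import Vale.Agent.P173.Design

/-! The main argument. -/

open Quaternion unitInterval

namespace Vale.Agent.P173

variable {Γ E R T : Type*} [Group Γ] {a : E → Γ} {r : R → FreeGroup E} {t : T → FreeGroup E}
  {ε : ℝ} (F : Fam a t ε)

/-- The curvature transported to the vertices of the Cayley graph. -/
noncomputable def Fam.zeta (φ : F.V → S3) (ξ : F.F → ℍ[ℝ]) : Γ × T → ℍ[ℝ] :=
  Function.extend (fun f => (F.pos (F.src (F.e1 f)), F.typ f))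
    (fun f => Ad (φ (F.src (F.e1 f)))⁻¹ (ξ f)) 0

lemma Fam.zeta_apply (φ : F.V → S3) (ξ : F.F → ℍ[ℝ]) (f : F.F) :
    F.zeta φ ξ (F.pos (F.src (F.e1 f)), F.typ f) = Ad (φ (F.src (F.e1 f)))⁻¹ (ξ f) :=
  F.inj.extend_apply _ _ f

lemma Fam.zeta_cases (p : Γ × T) : (∃ f, ∀ φ ξ, F.zeta φ ξ p = Ad (φ (F.src (F.e1 f)))⁻¹ (ξ f)) ∨
    ∀ φ ξ, F.zeta φ ξ p = 0 := by
  by_cases h : ∃ f, (F.pos (F.src (F.e1 f)), F.typ f) = p
  · obtain ⟨f, rfl⟩ := h
    exact Or.inl ⟨f, fun φ ξ => F.zeta_apply φ ξ f⟩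
  · exact Or.inr fun φ ξ => Function.extend_apply' _ _ _ h

lemma Fam.face_hol (A : Γ × E → S3) (φ : F.V → S3) (f : F.F) :
    F.face (fun e => φ (F.src e) * hol a A (F.lab e) (F.pos (F.src e)) * (φ (F.tgt e))⁻¹) f =
      φ (F.src (F.e1 f)) * hol a A (t (F.typ f)) (F.pos (F.src (F.e1 f))) *
        (φ (F.src (F.e1 f)))⁻¹ := by
  have h3 : F.pos (F.src (F.e1 f)) * FreeGroup.lift a (F.lab (F.e1 f) * F.lab (F.e2 f)) =
      F.pos (F.src (F.e3 f)) * FreeGroup.lift a (F.lab (F.e3 f)) := by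
    rw [map_mul, ← mul_assoc, ← F.pos_tgt, ← F.h12, ← F.pos_tgt, ← F.pos_tgt, F.h23]
  have h4 : F.pos (F.src (F.e1 f)) *
      FreeGroup.lift a (F.lab (F.e1 f) * F.lab (F.e2 f) * (F.lab (F.e3 f))⁻¹) =
      F.pos (F.src (F.e4 f)) * FreeGroup.lift a (F.lab (F.e4 f)) := by
    rw [map_mul, ← mul_assoc, h3, map_inv, mul_inv_cancel_right, ← F.pos_tgt, F.h43]
  rw [F.word, hol_mul, hol_mul, hol_mul, h3, h4, hol_inv, hol_inv, ← F.pos_tgt, ← F.h12, Fam.face,
    F.h12, F.h23, F.h43, F.h14]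
  group

open Classical in
/-- The words of the system of equations. -/
noncomputable def Fam.words (r : R → FreeGroup E) (Tr : Set F.Ed) (K : Finset (Γ × R)) :
    K ⊕ F.Ed → FreeGroup ((Γ × E) ⊕ F.V ⊕ F.Ed)
  | .inl q => FreeGroup.map Sum.inl (hol a FreeGroup.of (r q.1.2) q.1.1)
  | .inr e => .of (.inr (.inl (F.src e))) *
      FreeGroup.map Sum.inl (hol a FreeGroup.of (F.lab e) (F.pos (F.src e))) *
      (FreeGroup.of (.inr (.inl (F.tgt e))))⁻¹ *
      (if e ∈ Tr then 1 else FreeGroup.of (.inr (.inr e)))⁻¹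

open Classical in
lemma Fam.words_key [Fintype F.Ed] {Tr : Set F.Ed} {K : Finset (Γ × R)} {c : K ⊕ F.Ed → ℤ}
    (hc : ∑ j, c j • expo (F.words r Tr K j) = 0) {M : Type*} [AddCommGroup M] (f1 : Γ × E → M)
    (f2 : F.V → M) (f3 : F.Ed → M) :
    ∑ q : K, c (.inl q) • Finsupp.linearCombination ℤ f1 (fox a (r q.1.2) q.1.1) +
      ∑ e, c (.inr e) • (f2 (F.src e) + Finsupp.linearCombination ℤ f1
        (fox a (F.lab e) (F.pos (F.src e))) - f2 (F.tgt e) - if e ∈ Tr then 0 else f3 e) = 0 := by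
  rw [Fintype.sum_sum_type] at hc
  have := congrArg (Finsupp.linearCombination ℤ (Sum.elim f1 (Sum.elim f2 f3))) hc
  simp only [map_add, map_sum, map_smul, map_zero, Fam.words, expo_mul, expo_inv, expo_of,
    expo_map, Finsupp.linearCombination_mapDomain, Sum.elim_comp_inl, map_neg,
    Finsupp.linearCombination_single, one_smul, Sum.elim_inr, Sum.elim_inl, apply_ite expo,
    expo_one, apply_ite (Finsupp.linearCombination ℤ (Sum.elim f1 (Sum.elim f2 f3)))] at this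
  simpa only [sub_eq_add_neg, fox] using this

lemma Fam.words_indep [Fintype F.Ed] (hP : Function.Injective (d2 a r)) {Tr : Set F.Ed}
    (hT : LinearIndepOn ℤ (fun e => (Finsupp.single (F.src e) 1 - Finsupp.single (F.tgt e) 1 :
      F.V →₀ ℤ)) Tr) (K : Finset (Γ × R)) :
    LinearIndependent ℤ fun j => expo (F.words r Tr K j) := by
  classical
  rw [Fintype.linearIndependent_iff]
  intro c hc
  have h3 : ∀ e, e ∉ Tr → c (.inr e) = 0 := fun e he => by
    have := F.words_key hc (M := ℤ) 0 0 (Pi.single e 1)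
    simp only [Finsupp.linearCombination_zero, LinearMap.zero_apply, Pi.zero_apply, smul_zero,
      Finset.sum_const_zero, zero_add, sub_self, zero_sub] at this
    rw [Finset.sum_eq_single e (fun e' _ h => by simp [h]) (by simp)] at this
    simpa [he] using this
  have h2 : ∀ e, c (.inr e) = 0 := fun e => by
    by_cases he : e ∈ Tr
    · have := F.words_key hc (M := F.V →₀ ℤ) 0 (fun v => Finsupp.single v 1) 0
      simp only [Finsupp.linearCombination_zero, LinearMap.zero_apply, Pi.zero_apply, smul_zero,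
        Finset.sum_const_zero, zero_add, add_zero, ite_self, sub_zero] at this
      refine linearIndepOn_iff'.1 hT (Finset.univ.filter (· ∈ Tr)) (fun e => c (.inr e))
        (fun e he => by simpa using he) ?_ e (by simpa using he)
      rw [← this]
      exact Finset.sum_subset (Finset.subset_univ _) fun e _ he => by
        rw [h3 e (by simpa using he), zero_smul]
    · exact h3 e he
  have h1 := F.words_key hc (M := Γ × E →₀ ℤ) (fun p => Finsupp.single p 1) 0 0
  have lc : ∀ z : Γ × E →₀ ℤ, Finsupp.linearCombination ℤ (fun p => Finsupp.single p (1 : ℤ)) z = z :=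
    fun z => by simp [Finsupp.linearCombination_apply]
  simp only [h2, zero_smul, Finset.sum_const_zero, add_zero, lc] at h1
  have li : LinearIndependent ℤ fun p : Γ × R => fox a (r p.2) p.1 := hP
  rintro (q | e)
  · exact Fintype.linearIndependent_iff.1 (li.comp (fun q : K => q.1) Subtype.val_injective)
      (fun q => c (.inl q)) h1 q
  · exact h2 e

theorem core {Γ E R T : Type*} [Group Γ] [Finite T] {a : E → Γ} {r : R → FreeGroup E}
    {t : T → FreeGroup E} {κ : FreeGroup E → Γ × T →₀ ℤ} (hP : Pres a r) (hK : Kap a t κ)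
    (hF : ∀ ε > 0, Nonempty (Fam a t ε)) : False := by
  classical
  obtain ⟨u, hu, u1⟩ : ∃ u : Γ → FreeGroup E, (∀ d, FreeGroup.lift a (u d) = d) ∧ u 1 = 1 := by
    choose u hu using hP.surj
    refine ⟨fun d => if d = 1 then 1 else u d, fun d => ?_, by simp⟩
    by_cases h : d = 1 <;> simp [h, hu]
  choose C K hC hest using local_est hP.ker hK hu
  have := Fintype.ofFinite T
  obtain ⟨C₀, hC₀, hle⟩ : ∃ C₀, 0 ≤ C₀ ∧ ∀ τ, C (t τ) (hK.rel τ) ≤ C₀ :=
    ⟨∑ τ, C (t τ) (hK.rel τ), Finset.sum_nonneg fun _ _ => hC _ _, fun τ =>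
      Finset.single_le_sum (f := fun τ => C (t τ) (hK.rel τ)) (fun _ _ => hC _ _)
        (Finset.mem_univ τ)⟩
  obtain ⟨ε₀, h0, h1, h2⟩ : ∃ ε₀ > 0, ε₀ ≤ 1 ∧ C₀ * ε₀ ≤ 1 / 2 :=
    ⟨1 / (2 * C₀ + 1), by positivity, by rw [div_le_one (by positivity)]; linarith, by
      rw [mul_one_div, div_le_iff₀ (by positivity)]; linarith⟩
  obtain ⟨F⟩ := hF (ε₀ / 30) (by positivity)
  have := F.finE
  have := F.finF
  have := Fintype.ofFinite F.Ed
  have := Fintype.ofFinite F.F
  obtain ⟨Tr, hT1, hT⟩ := exists_forest F.src F.tgt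
  obtain ⟨G, ξ, cG, cξ, G0, ξ0, ξre, ξn, hfin⟩ := F.design hT h0 h1 (by linarith)
  have hlam : ∀ e, FreeGroup.lift a
      (u (F.pos (F.src e)) * F.lab e * (u (F.pos (F.tgt e)))⁻¹) = 1 := fun e => by
    rw [map_mul, map_mul, map_inv, hu, hu, F.pos_tgt, mul_inv_cancel]
  obtain ⟨KF, K1, K2⟩ : ∃ KF : Finset (Γ × R),
      (∀ f, ∀ q ∈ K _ (hK.rel (F.typ f)), (F.pos (F.src (F.e1 f)) * q.1, q.2) ∈ KF) ∧
      ∀ e, ∀ q ∈ K _ (hlam e), (1 * q.1, q.2) ∈ KF :=
    ⟨(Finset.univ.biUnion fun f => (K _ (hK.rel (F.typ f))).image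
        fun q => (F.pos (F.src (F.e1 f)) * q.1, q.2)) ∪ Finset.univ.biUnion fun e => K _ (hlam e),
      fun f q hq => Finset.mem_union_left _ (Finset.mem_biUnion.2
        ⟨f, Finset.mem_univ _, Finset.mem_image_of_mem _ hq⟩),
      fun e q hq => Finset.mem_union_right _ (Finset.mem_biUnion.2
        ⟨e, Finset.mem_univ _, by simpa using hq⟩)⟩
  obtain ⟨U, hU⟩ : ∃ U : ((Γ × E) ⊕ F.V ⊕ F.Ed → S3) → F.Ed → S3,
      ∀ x e, U x e = if e ∈ Tr then 1 else x (.inr (.inr e)) := ⟨_, fun _ _ => rfl⟩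
  have cU : Continuous fun p : I × ((Γ × E) ⊕ F.V ⊕ F.Ed → S3) => (p.1, U p.2) :=
    continuous_fst.prodMk (continuous_pi fun e => by
      simp only [hU]; split_ifs <;> fun_prop)
  obtain ⟨Z, hZ⟩ : ∃ Z : I × ((Γ × E) ⊕ F.V ⊕ F.Ed → S3) → Γ × T → ℍ[ℝ],
      ∀ p, Z p = F.zeta (fun v => p.2 (.inr (.inl v))) (ξ (p.1, U p.2)) := ⟨_, fun _ => rfl⟩
  have Zre : ∀ p q, (Z p q).re = 0 := fun p q => by
    rcases F.zeta_cases q with ⟨f, h⟩ | h <;> simp [hZ, h, Ad_re, ξre]
  have Zn : ∀ p q, ‖Z p q‖ ≤ ‖ξ (p.1, U p.2)‖ := fun p q => by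
    rcases F.zeta_cases q with ⟨f, h⟩ | h
    · rw [hZ, h, norm_Ad]; exact norm_le_pi_norm _ f
    · simp [hZ, h]
  have Zc : ∀ q, Continuous fun p => Z p q := fun q => by
    rcases F.zeta_cases q with ⟨f, h⟩ | h
    · simp only [hZ, h]
      exact continuous_Ad (by fun_prop) ((continuous_apply f).comp (cξ.comp cU))
    · simp only [hZ, h]; exact continuous_const
  obtain ⟨x, hx⟩ := robust_GR _ (F.words_indep hP.inj hT1 KF)
    (fun p => Sum.elim
      (fun q : KF => hol a (fun n => p.2 (.inl n)) (r q.1.2) q.1.1 *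
        (nrm (1 + Lin a u (fun n => p.2 (.inl n)) (Z p) q.1.1 (κ (r q.1.2))))⁻¹)
      fun e => p.2 (.inr (.inl (F.src e))) * hol a (fun n => p.2 (.inl n)) (F.lab e)
        (F.pos (F.src e)) * (p.2 (.inr (.inl (F.tgt e))))⁻¹ * (G (p.1, U p.2) e)⁻¹)
    (continuous_pi (by
      rintro (q | e)
      · exact (continuous_hol a (by fun_prop) _ _).mul (continuous_nrm (continuous_const.add
          (continuous_Lin a u (by fun_prop) Zc _ _)) fun p =>
            one_add_ne_zero (Lin_re _ _ _ (Zre p) _ _)).inv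
      · exact ((Continuous.mul (by fun_prop) (continuous_hol a (by fun_prop) _ _)).mul
          (by fun_prop)).mul ((continuous_apply e).comp (cG.comp cU)).inv))
    (by
      have hm : ∀ (x : (Γ × E) ⊕ F.V ⊕ F.Ed → S3) w g, FreeGroup.lift x (FreeGroup.map Sum.inl
          (hol a FreeGroup.of w g)) = hol a (fun n => x (.inl n)) w g := fun x w g => by
        rw [hol_map, hol_map]; simp
      rintro x (q | e)
      · have : Z (0, x) = 0 := funext fun q => norm_le_zero_iff.1 (by simpa [ξ0] using Zn (0, x) q)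
        simp [Fam.words, hm, this, Lin_zero, nrm_one]
      · simp only [Sum.elim_inr, Fam.words, map_mul, map_inv, hm, G0, hU, FreeGroup.lift_apply_of]
        split_ifs <;> simp)
  obtain ⟨A, hA⟩ : ∃ A : Γ × E → S3, A = fun n => x (.inl n) := ⟨_, rfl⟩
  have eq1 : ∀ q ∈ KF, hol a A (r q.2) q.1 = nrm (1 + Lin a u A (Z (1, x)) q.1 (κ (r q.2))) :=
    fun q hq => hA ▸ mul_inv_eq_one.1 (hx (.inl ⟨q, hq⟩))
  have eq2 : G (1, U x) = fun e => x (.inr (.inl (F.src e))) * hol a A (F.lab e)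
      (F.pos (F.src e)) * (x (.inr (.inl (F.tgt e))))⁻¹ :=
    funext fun e => hA ▸ (mul_inv_eq_one.1 (hx (.inr e))).symm
  have est := fun w hw g => hest w hw A (Z (1, x)) _ g (norm_nonneg _) ((ξn _).trans h1)
    (Zre _) (Zn (1, x))
  refine hfin (U x) (fun e he => by simp [hU, he]) (fun f => ?_) fun h => ?_
  · have e1 := (est _ _ _ fun q hq => eq1 _ (K1 f q hq)).2
    rw [hK.base, Lin_single, u1, hol_one, Ad_one, one_smul, mul_one, hZ, F.zeta_apply,
      ← norm_Ad (x (.inr (.inl (F.src (F.e1 f))))), Ad_sub, Ad_sub, Ad_unit, Ad_coe, ← Ad_mul,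
      mul_inv_cancel, Ad_one] at e1
    rw [eq2, F.face_hol A fun v => x (.inr (.inl v))]
    refine e1.trans ?_
    have n0 := norm_nonneg (ξ (1, U x))
    have n1 := mul_le_mul (hle (F.typ f)) (ξn (1, U x)) n0 hC₀
    nlinarith
  · refine ⟨fun v => x (.inr (.inl v)) * (hol a A (u (F.pos v)) 1)⁻¹, fun e => ?_⟩
    have e1 := (est _ _ _ fun q hq => eq1 _ (K2 e q hq)).1
    simp only [h, norm_zero, mul_zero, norm_le_zero_iff, sub_eq_zero] at e1
    have e2 : hol a A _ 1 = 1 := Subtype.ext e1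
    have e3 := hol_inv a A (u (F.pos (F.tgt e))) 1
    rw [hu, one_mul] at e3
    rw [hol_mul, hol_mul, map_mul, hu, one_mul, one_mul, ← F.pos_tgt, e3, mul_inv_eq_one] at e2
    simp only [eq2, ← e2]
    group

end Vale.Agent.P173
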