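import Vale.Agent.P173.Alg
import Vale.Agent.P174.LemmaQ
import Mathlib.LinearAlgebra.Matrix.SchurComplement

/-! Degree argument for word maps on products of three-spheres: the smooth square case. -/

open Quaternion Set Matrix Vale.Agent.P174 MeasureTheory
open scoped ContDiff

namespace Vale.Agent.P173

/-- The complex matrix of a quaternion. -/
noncomputable def grMat : ℍ[ℝ] →ₗ[ℝ] Matrix (Fin 2) (Fin 2) ℂ where
  toFun q := !![⟨q.re, q.imI⟩, ⟨q.imJ, q.imK⟩; ⟨-q.imJ, q.imK⟩, ⟨q.re, -q.imI⟩]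
  map_add' p q := by
    ext a b; fin_cases a <;> fin_cases b <;> simp [Complex.ext_iff, add_comm]
  map_smul' c q := by
    ext a b; fin_cases a <;> fin_cases b <;> simp [Complex.ext_iff]

lemma grMat_apply (q : ℍ[ℝ]) :
    grMat q = !![⟨q.re, q.imI⟩, ⟨q.imJ, q.imK⟩; ⟨-q.imJ, q.imK⟩, ⟨q.re, -q.imI⟩] := rfl

lemma grMat_mul (p q : ℍ[ℝ]) : grMat (p * q) = grMat p * grMat q := by
  ext a b
  fin_cases a <;> fin_cases b <;>
    simp [grMat_apply, Complex.ext_iff, Matrix.mul_apply, Fin.sum_univ_two] <;>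
    constructor <;> ring

lemma grMat_one : grMat 1 = 1 := by
  ext a b; fin_cases a <;> fin_cases b <;> simp [grMat_apply, Complex.ext_iff]

lemma grMat_star (q : ℍ[ℝ]) : grMat (star q) = star (grMat q) := by
  ext a b; fin_cases a <;> fin_cases b <;> simp [grMat_apply, Complex.ext_iff]

lemma grMat_det (q : ℍ[ℝ]) : (grMat q).det = (‖q‖ ^ 2 : ℝ) := by
  rw [sq, ← Quaternion.normSq_eq_norm_mul_self, Quaternion.normSq_def', grMat_apply, det_fin_two_of]
  simp [Complex.ext_iff, -Complex.ofReal_pow]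
  constructor <;> ring

lemma grMat_unit {q : ℍ[ℝ]} (h : q ≠ 0) : IsUnit (grMat q).det := by
  rw [grMat_det, isUnit_iff_ne_zero]
  exact_mod_cast pow_ne_zero 2 (norm_ne_zero_iff.2 h)

lemma grMat_unitary (q : S3) : grMat q ∈ unitaryGroup (Fin 2) ℂ := by
  rw [mem_unitaryGroup_iff, ← grMat_star, ← grMat_mul, Quaternion.self_mul_star,
    Quaternion.normSq_eq_norm_mul_self, q.norm_coe]
  simpa using grMat_one

lemma grMat_inv (q : S3) : grMat ((q⁻¹ : S3) : ℍ[ℝ]) = (grMat q)⁻¹ := by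
  refine (inv_eq_left_inv ?_).symm
  rw [← grMat_mul, ← S3.coe_mul, inv_mul_cancel, S3.coe_one, grMat_one]

/-- The quaternion read from the first row of a matrix. -/
def grQuat (M : Matrix (Fin 2) (Fin 2) ℂ) : ℍ[ℝ] := ⟨(M 0 0).re, (M 0 0).im, (M 0 1).re, (M 0 1).im⟩

lemma grQuat_mat (q : ℍ[ℝ]) : grQuat (grMat q) = q := rfl

lemma grMat_quat {M : Matrix (Fin 2) (Fin 2) ℂ} (hM : M ∈ unitaryGroup (Fin 2) ℂ)
    (hd : M.det = 1) : grMat (grQuat M) = M := by
  have h1 : M⁻¹ = star M := inv_eq_left_inv (mem_unitaryGroup_iff'.1 hM)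
  rw [Matrix.inv_def, hd, adjugate_fin_two] at h1
  have e1 := congrFun (congrFun h1 0) 0
  have e2 := congrFun (congrFun h1 1) 0
  simp [Complex.ext_iff] at e1 e2
  rw [grMat_apply]
  ext a b
  fin_cases a <;> fin_cases b <;> simp [grQuat, Complex.ext_iff, e1]
  constructor <;> linarith [e2.1, e2.2]

section
variable {ι : Type} [Fintype ι]

lemma msm_grMat {u : (ι → ℝ) → ℍ[ℝ]} (hu : Sm u) : MSm fun x => grMat (u x) := fun a b =>
  (LinearMap.toContinuousLinearMap ((Matrix.entryLinearMap ℝ ℂ a b).comp grMat)).contDiff.comp hu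

lemma sm_grQuat {f : (ι → ℝ) → Matrix (Fin 2) (Fin 2) ℂ} (hf : MSm f) :
    Sm fun x => grQuat (f x) := by
  have : (fun x => grQuat (f x)) = fun x => (f x 0 0).re • (⟨1, 0, 0, 0⟩ : ℍ[ℝ]) +
      (f x 0 0).im • (⟨0, 1, 0, 0⟩ : ℍ[ℝ]) + (f x 0 1).re • (⟨0, 0, 1, 0⟩ : ℍ[ℝ]) +
      (f x 0 1).im • (⟨0, 0, 0, 1⟩ : ℍ[ℝ]) := by
    funext x; ext <;> simp [grQuat]
  rw [this]
  have h1 := fun a b => Complex.reCLM.contDiff.comp (hf a b)
  have h2 := fun a b => Complex.imCLM.contDiff.comp (hf a b)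
  exact ((((h1 0 0).smul contDiff_const).add ((h2 0 0).smul contDiff_const)).add
    ((h1 0 1).smul contDiff_const)).add ((h2 0 1).smul contDiff_const)

lemma Eqv.smul [DecidableEq ι] {B : Bdy ι} {μ η : (ι → ℝ) → Fk ι} (h : Eqv B μ η) (c : ℂ) :
    Eqv B (fun x => c • μ x) fun x => c • η x := by
  refine ⟨h.ca.const_smul c, h.cb.const_smul c, fun Ξ Ξ' h1 h2 => ?_⟩
  simp only [mul_smul_comm, smul_mul_assoc, Bdy.I_smul, h.eq _ _ h1 h2]

end

variable {m : ℕ}

lemma det_pq (q : Fin m × Fin 2) (x : Co m 2 → ℝ) : (pq q x).det = ex (x (cψ q)) := by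
  rw [pq, P174.refl, ← Matrix.smul_mul, det_one_add_mul_comm, Matrix.mul_smul, vec_norm _ _ q.2.2]
  simp [det_unique]

/-- The correcting diagonal factor. -/
noncomputable def grD (j : Fin m) (x : Co m 2 → ℝ) : Matrix (Fin 2) (Fin 2) ℂ :=
  diagonal ![star (ex (x (cψ (j, 1)))), 1]

lemma grD_unitary (j : Fin m) (x : Co m 2 → ℝ) : grD j x ∈ unitaryGroup (Fin 2) ℂ := by
  rw [mem_unitaryGroup_iff, grD, star_eq_conjTranspose, diagonal_conjTranspose,
    diagonal_mul_diagonal, ← diagonal_one]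
  congr 1
  funext a
  fin_cases a
  · simpa using star_ex _
  · simp

lemma grD_gd (j : Fin m) : Gd (bd m 2) (grD j) := by
  refine ⟨fun a b => ?_,
    fun x => (Unitary.isUnit_coe (U := ⟨_, grD_unitary j x⟩)).map detMonoidHom, fun x y h => ?_⟩
  · fin_cases a <;> fin_cases b
    · exact Complex.conjCLE.contDiff.comp (sm_ex _)
    all_goals exact contDiff_const
  · rw [grD, grD, ← det_pq, ← det_pq, pq_inv _ x y h]

lemma grD_sind (j : Fin m) : (bd m 2).Sind (grD j) := fun x t => by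
  rw [grD, grD, ← det_pq, ← det_pq, pq_sind _ x t]

lemma xk_grD (j : Fin m) (x : Co m 2 → ℝ) : xk 3 (grD j) x = 0 :=
  Deg.eq_zero (S := {cψ (j, 1)}) (by simp) (xk_mem_Deg (grD_gd j).sm
    (fun y y' h => by rw [grD, grD, h _ (by simp)]) 3 x)

lemma grU_mat (j : Fin m) (x : Co m 2 → ℝ) :
    grMat (grQuat (grD j x * pq (j, 1) x)) = grD j x * pq (j, 1) x := by
  refine grMat_quat (mul_mem (grD_unitary j x) (pq_unitary _ x)) ?_
  rw [det_mul, det_pq, grD, det_diagonal]
  simpa using star_ex _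

/-- The parametrisation of the product of spheres. -/
noncomputable def grS (x : Co m 2 → ℝ) (j : Fin m) : S3 :=
  ⟨grQuat (grD j x * pq (j, 1) x), by
    have h := grMat_det (grQuat (grD j x * pq (j, 1) x))
    rw [grU_mat, det_mul, det_pq, grD, det_diagonal] at h
    have h2 := star_ex (x (cψ (j, 1)))
    simp only [Fin.prod_univ_two, cons_val_zero, cons_val_one, mul_one, h2] at h
    have h3 : ‖grQuat (grD j x * pq (j, 1) x)‖ ^ 2 = 1 := by exact_mod_cast h.symm
    rw [mem_sphere_zero_iff_norm]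
    exact (pow_eq_one_iff_of_nonneg (norm_nonneg _) two_ne_zero).1 h3⟩

lemma grMat_grS (j : Fin m) (x : Co m 2 → ℝ) : grMat (grS x j) = grD j x * pq (j, 1) x :=
  grU_mat j x

lemma grS_inv : (bd m 2).Inv grS := fun x y h => funext fun j => Subtype.ext (by
  simp only [grS, (grD_gd j).inv x y h, pq_inv _ x y h])

lemma grS_sind : (bd m 2).Sind grS := fun x t => funext fun j => Subtype.ext (by
  simp only [grS, grD_sind j x t, pq_sind _ x t])

lemma grS_sm (j : Fin m) : Sm fun x : Co m 2 → ℝ => (grS x j : ℍ[ℝ]) :=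
  sm_grQuat ((grD_gd j).sm.mul (pq_sm _))

lemma grS_gd {u : (Fin m → S3) → ℍ[ℝ]} (hs : Sm fun x => u (grS x)) (h : ∀ y, u y ≠ 0) :
    Gd (bd m 2) fun x => grMat (u (grS x)) :=
  ⟨msm_grMat hs, fun _ => grMat_unit (h _), fun x y hxy => by simp only [grS_inv x y hxy]⟩

lemma grS_eqv (j : Fin m) :
    Eqv (bd m 2) (xk 3 fun x => grMat (grS x j)) (xk 3 (pq (j, 1))) := by
  have := Eqv.mul (grD_gd j) (pq_gd (j, 1)) (grD_sind j) (pq_sind _) 1
  simp only [mul_one, Nat.reduceAdd, xk_grD, zero_add] at this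
  simpa only [grMat_grS] using this

lemma gr_word (w : FreeGroup (Fin m)) :
    (Sm fun x => ((FreeGroup.lift (grS x) w : S3) : ℍ[ℝ])) ∧
    Eqv (bd m 2) (xk 3 fun x => grMat ((FreeGroup.lift (grS x) w : S3) : ℍ[ℝ]))
      fun x => ∑ i, ((expo w i : ℤ) : ℂ) • xk 3 (pq (i, 1)) x := by
  have g1 : ∀ j : Fin m, Gd (bd m 2) fun x => grMat (grS x j) := fun j =>
    grS_gd (u := fun y => y j) (grS_sm j) fun y => (y j).coe_ne_zero
  induction w using FreeGroup.induction_on with
  | C1 =>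
    refine ⟨by simpa using contDiff_const, ?_⟩
    have : (xk 3 fun _ : Co m 2 → ℝ => (1 : Matrix (Fin 2) (Fin 2) ℂ)) = fun _ => 0 :=
      funext (xk_const _ _)
    simpa [grMat_one, this] using Eqv.refl (B := bd m 2) (μ := fun _ => 0) continuous_const
  | of e =>
    refine ⟨by simpa using grS_sm e, ?_⟩
    simpa [Finsupp.single_apply] using grS_eqv e
  | inv_of e _ =>
    simp only [map_inv, FreeGroup.lift_apply_of, grMat_inv]
    refine ⟨?_, ?_⟩
    · have := sm_grQuat (g1 e).inverse.sm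
      simpa only [← grMat_inv, grQuat_mat] using this
    · have h := Eqv.smul (grS_eqv e) (-1)
      have e1 : (xk 3 fun x => (grMat (grS x e : ℍ[ℝ]))⁻¹) =
          fun x => (-1 : ℂ) • xk 3 (fun x => grMat (grS x e : ℍ[ℝ])) x :=
        funext fun x => by simpa using xk_inv (g1 e).sm (g1 e).unit 1 x
      rw [e1]
      simpa [Finsupp.single_apply, apply_ite] using h
  | mul u v hu hv =>
    simp only [map_mul, S3.coe_mul, grMat_mul, expo_mul, Finsupp.add_apply, Int.cast_add, add_smul,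
      Finset.sum_add_distrib]
    refine ⟨hu.1.mul hv.1, ?_⟩
    exact (Eqv.mul (grS_gd (u := fun y => (FreeGroup.lift y u : S3)) hu.1 fun y => S3.coe_ne_zero _)
      (grS_gd (u := fun y => (FreeGroup.lift y v : S3)) hv.1 fun y => S3.coe_ne_zero _)
      (fun x t => by simp only [grS_sind x t]) (fun x t => by simp only [grS_sind x t]) 1).trans
      (hu.2.add hv.2)

lemma gr_homotopy (H : ℝ → (Fin m → S3) → ℍ[ℝ])
    (hs : ∀ t : (Co m 2 → ℝ) → ℝ, Sm t → Sm fun x => H (t x) (grS x))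
    (hne : ∀ s ∈ Icc (0 : ℝ) 1, ∀ y, H s y ≠ 0) :
    Eqv (bd m 2) (xk 3 fun x => grMat (H 0 (grS x))) (xk 3 fun x => grMat (H 1 (grS x))) := by
  have hH : Gd (bd m 2) fun x => grMat (H (Real.smoothTransition (x (bd m 2).s)) (grS x)) :=
    ⟨msm_grMat (hs _ (Real.smoothTransition.contDiff.comp (contDiff_apply ℝ ℝ _))),
      fun x => grMat_unit (hne _ ⟨Real.smoothTransition.nonneg _, Real.smoothTransition.le_one _⟩ _),
      fun x y h => by simp only [grS_inv x y h, (bd m 2).inv_s x y h]⟩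
  exact Eqv.homotopy hH (grS_gd (hs _ contDiff_const) (hne 0 (by simp)))
    (grS_gd (hs _ contDiff_const) (hne 1 (by simp))) (fun x => by simp [grS_sind.update])
    (fun x => by simp [grS_sind.update]) 1

lemma gr_exists {T : Fin m → (Co m 2 → ℝ) → Matrix (Fin 2) (Fin 2) ℂ}
    (gT : ∀ j, Gd (bd m 2) (T j)) (sT : ∀ j, (bd m 2).Sind (T j))
    (uT : ∀ j x, T j x ∈ unitaryGroup (Fin 2) ℂ) {d : ℂ} (hd : d ≠ 0)
    (xT : ∀ j, Eqv (bd m 2) (xk 3 (T j)) fun x => d • xk 3 (pq (j, 1)) x) :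
    ∃ x, ∀ j, (T j x - (1 : ℂ) • 1).det = 0 := by
  by_contra hcon
  push Not at hcon
  let g : (Co m 2 → ℝ) → ℝ := fun x => ∑ j, ‖(T j x - (1 : ℂ) • 1).det‖ ^ 2
  have hg : Continuous g := continuous_finsetSum _ fun j _ =>
    ((MSm.det (f := fun x => T j x - (1 : ℂ) • 1)
      fun a b => ((gT j).sm a b).sub contDiff_const).continuous.norm).pow 2
  have hK : IsCompact (Set.pi Set.univ fun _ : Co m 2 => Set.Icc (0 : ℝ) 1) :=
    isCompact_univ_pi fun _ => isCompact_Icc
  obtain ⟨x0, -, hx0⟩ := hK.exists_isMinOn ⟨0, fun _ _ => by simp⟩ hg.continuousOn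
  have hpos : 0 < g x0 := by
    obtain ⟨q, hq⟩ := hcon x0
    exact Finset.sum_pos' (fun _ _ => sq_nonneg _) ⟨q, Finset.mem_univ _, by positivity⟩
  have hε0 : 0 < g x0 / (Fintype.card (Fin m) + 1) := by positivity
  choose f gf sf ef zf using fun j => exists_deform (gT j) (sT j) (uT j) norm_one hε0
  let L : List (Fin m × Fin 2) := Finset.univ.toList
  have hL2 : ∀ q, q ∈ L := fun q => by simp [L]
  have hL := integral_ne_zero (Finset.nodup_toList _) hL2
  let f' : Fin m × Fin 2 → (Co m 2 → ℝ) → Matrix (Fin 2) (Fin 2) ℂ :=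
    fun q => if q.2 = 1 then f q.1 else pq q
  let c : Fin m × Fin 2 → ℂ := fun q => if q.2 = 1 then d else 1
  have e0 : ((bd m 2).I fun x => (L.map fun q => xk (2 * q.2 + 1) (f' q) x).prod) = 0 := by
    rw [Bdy.I, cube_eq]
    refine setIntegral_eq_zero_of_forall_eq_zero fun x hx => ?_
    obtain ⟨j, hj⟩ : ∃ j, g x0 / (Fintype.card (Fin m) + 1) <
        ‖(T j x - (1 : ℂ) • 1).det‖ ^ 2 := by
      by_contra h
      push Not at h
      have h1 : g x ≤ Fintype.card (Fin m) * (g x0 / (Fintype.card (Fin m) + 1)) := by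
        simpa [g] using Finset.sum_le_card_nsmul Finset.univ _ _ fun q _ => h q
      have h2 : g x0 ≤ g x := hx0 hx
      have h3 : (Fintype.card (Fin m) + 1) * (g x0 / (Fintype.card (Fin m) + 1)) =
        g x0 := mul_div_cancel₀ _ (by positivity)
      linarith
    rw [List.prod_eq_zero (List.mem_map.2 ⟨(j, 1), hL2 _, zf j x hj _⟩)]
    simp
  have hY : ∀ q : Fin m × Fin 2, BF (bd m 2) fun x => c q • xk (2 * q.2 + 1) (pq q) x := by
    intro q
    have h := (pq_gd q).gf q.2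
    refine ⟨⟨_, ⟨h.sm.const_smul _, fun x => ?_, fun x => Submodule.smul_mem _ _ (h.par x),
      fun b hb x => by rw [h.per b hb], fun b c' x hx => Subalgebra.smul_mem _ (h.kil b c' x hx) _⟩⟩,
      fun x t => by simp only [((pq_gd q).bf (pq_sind q) q.2).2 x t]⟩
    rw [ed_smul contDiff_const h.sm, d0_const, h.closed]; simp
  have e1 := Eqv.prod (X := fun q : Fin m × Fin 2 => xk (2 * q.2 + 1) (f' q))
    (fun q => by
      simp only [f']
      split_ifs
      · exact (gf _).bf (sf _) _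
      · exact (pq_gd q).bf (pq_sind q) _) hY
    (fun q => by
      obtain ⟨j, l⟩ := q
      fin_cases l
      · simpa [f', c] using Eqv.refl ((pq_gd (j, (0 : Fin 2))).gf 0).sm.continuous
      · exact (ef j 1).symm.trans (xT j)) L
  have e2 : ∀ (L : List (Fin m × Fin 2)) (a : Fin m × Fin 2 → Fk (Co m 2)),
      (L.map fun q => c q • a q).prod = (L.map c).prod • (L.map a).prod := by
    intro L a
    induction L with
    | nil => simp
    | cons q L ih => simp [ih, smul_smul, mul_comm]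
  simp only [e2, Bdy.I_smul, e0] at e1
  refine mul_ne_zero (List.prod_ne_zero fun h => ?_) hL e1.symm
  obtain ⟨q, -, hq⟩ := List.mem_map.1 h
  simp only [c] at hq
  split_ifs at hq
  · exact hd hq
  · exact one_ne_zero hq

theorem gr_smooth {m : ℕ} (W : Fin m → FreeGroup (Fin m)) {d : ℤ} (hd : d ≠ 0)
    (hW : ∀ j, expo (W j) = Finsupp.single j d)
    (F : ℝ × (Fin m → ℍ[ℝ]) → Fin m → ℍ[ℝ]) (hF : ContDiff ℝ ∞ F)
    (hne : ∀ s ∈ Icc (0 : ℝ) 1, ∀ (x : Fin m → S3) j, F (s, fun i => x i) j ≠ 0)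
    (h0 : ∀ (x : Fin m → S3) j, ‖F (0, fun i => x i) j - (FreeGroup.lift x (W j) : S3)‖ < 1) :
    ∃ x : Fin m → S3, ∀ j, nrm (F (1, fun i => x i) j) = 1 := by
  have sF : ∀ j (t : (Co m 2 → ℝ) → ℝ), Sm t → Sm fun x => F (t x, fun i => grS x i) j :=
    fun j t ht => (contDiff_apply ℝ _ j).comp (hF.comp (ht.prodMk (contDiff_pi.2 grS_sm)))
  have h1 : ∀ (y : Fin m → S3) j, F (1, fun i => y i) j ≠ 0 := hne 1 (by simp)
  have sN : ∀ j, Sm fun x : Co m 2 → ℝ => ‖F (1, fun i => grS x i) j‖⁻¹ := fun j =>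
    ((sF j _ contDiff_const).norm ℝ fun x => h1 _ j).inv fun x => norm_ne_zero_iff.2 (h1 _ j)
  have key : ∀ j, Eqv (bd m 2) (xk 3 fun x => grMat (nrm (F (1, fun i => grS x i) j)))
      fun x => ((d : ℤ) : ℂ) • xk 3 (pq (j, 1)) x := by
    intro j
    have a1 := (gr_word (W j)).2
    simp only [hW, Finsupp.single_apply, Int.cast_ite, Int.cast_zero, ite_smul, zero_smul,
      Finset.sum_ite_eq, Finset.mem_univ, if_true] at a1
    have a2 := gr_homotopy
      (fun s y => (FreeGroup.lift y (W j) : S3) + s • (F (0, fun i => y i) j -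
        (FreeGroup.lift y (W j) : S3)))
      (fun t ht => (gr_word (W j)).1.add (ht.smul ((sF j _ contDiff_const).sub (gr_word (W j)).1)))
      (fun s hs y h => by
        have h2 := congrArg norm (eq_neg_of_add_eq_zero_left h)
        rw [S3.norm_coe, norm_neg, norm_smul, Real.norm_of_nonneg hs.1] at h2
        nlinarith [h0 y j, hs.1, hs.2, norm_nonneg (F (0, fun i => y i) j -
          (FreeGroup.lift y (W j) : S3))])
    have a3 := gr_homotopy (fun s y => F (s, fun i => y i) j) (sF j) fun s hs y => hne s hs y j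
    have a4 := gr_homotopy
      (fun s y => (1 - s + s * ‖F (1, fun i => y i) j‖⁻¹) • F (1, fun i => y i) j)
      (fun t ht => ((contDiff_const.sub ht).add (ht.mul (sN j))).smul (sF j _ contDiff_const))
      (fun s hs y => smul_ne_zero (by
        have := inv_pos.2 (norm_pos_iff.2 (h1 y j))
        rcases hs.2.eq_or_lt with h | h
        · simpa [h] using h1 y j
        · nlinarith [mul_nonneg hs.1 this.le]) (h1 y j))
    simp only [zero_smul, add_zero, one_smul, add_sub_cancel] at a2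
    simp only [sub_zero, zero_mul, add_zero, one_smul, sub_self, one_mul, zero_add] at a4
    simp only [coe_nrm (h1 _ j)]
    exact ((a4.symm.trans a3.symm).trans a2.symm).trans a1
  obtain ⟨x, hx⟩ := gr_exists (T := fun j x => grMat (nrm (F (1, fun i => grS x i) j)))
    (fun j => grS_gd (u := fun y => nrm (F (1, fun i => y i) j))
      (by simp only [coe_nrm (h1 _ j)]; exact (sN j).smul (sF j _ contDiff_const))
      fun y => S3.coe_ne_zero _)
    (fun j x t => by simp only [grS_sind x t]) (fun j x => grMat_unitary _)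
    (by exact_mod_cast hd) key
  refine ⟨grS x, fun j => Subtype.ext ?_⟩
  have h := hx j
  rw [one_smul, ← grMat_one, ← map_sub, grMat_det] at h
  have h2 : ‖(nrm (F (1, fun i => grS x i) j) : ℍ[ℝ]) - 1‖ ^ 2 = 0 := by exact_mod_cast h
  exact sub_eq_zero.1 (norm_eq_zero.1 (pow_eq_zero_iff two_ne_zero |>.1 h2))

end Vale.Agent.P173
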